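import Vale.Agent.P042.WG.Spec
import Vale.Agent.P042.WA.W4.Main
set_option autoImplicit false

/-! G2: even weights at a multiple root of multiplicity `m`, `-1` an `m`-th power
(symmetrised weights of the curve). -/

namespace Vale.Agent.P042.WG

open Polynomial WA WA.W4P

namespace G2P

variable {p : ℕ} [Fact p.Prime]

lemma fib2 {h : (ZMod p)[X]} {F : (ZMod p)[X][X]} {d : ℕ} (hF : GoodFac h F d)
    (hk : 1 ≤ h.natDegree) (x : ZMod p) :
    ((Cu F).filter (fun P => P.2 = x)).card ≤ h.natDegree := by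
  classical
  refine le_trans ?_ (rootcount hk (- h.eval x))
  refine Finset.card_le_card_of_injOn Prod.fst ?_ ?_
  · intro P hP
    rw [Finset.mem_coe, Finset.mem_filter, mem_Cu] at hP
    rw [Finset.mem_coe, Finset.mem_filter]
    refine ⟨Finset.mem_univ _, ?_⟩
    have h1 := on_curve hF hP.1
    rw [hP.2] at h1
    exact eq_neg_of_add_eq_zero_left h1
  · intro P hP Q hQ hPQ
    rw [Finset.mem_coe, Finset.mem_filter] at hP hQ
    exact Prod.ext hPQ (hP.2.trans hQ.2.symm)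

lemma card_filter2 {h : (ZMod p)[X]} {F : (ZMod p)[X][X]} {d : ℕ} (hF : GoodFac h F d)
    (hk : 1 ≤ h.natDegree) (T : Finset (ZMod p)) :
    ((Cu F).filter (fun P => P.2 ∈ T)).card ≤ T.card * h.natDegree := by
  classical
  rw [Finset.card_eq_sum_card_fiberwise (f := Prod.snd) (t := T)
    (fun P hP => by
      rw [Finset.mem_coe, Finset.mem_filter] at hP
      exact hP.2)]
  refine (Finset.sum_le_sum fun a _ => ?_).trans (by rw [Finset.sum_const, smul_eq_mul])
  refine le_trans (Finset.card_le_card ?_) (fib2 hF hk a)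
  intro P hP
  rw [Finset.mem_filter, Finset.mem_filter] at hP
  rw [Finset.mem_filter]
  exact ⟨hP.1.1, hP.2⟩

/-- few points are removed -/
lemma card_diff2 {h : (ZMod p)[X]} {F : (ZMod p)[X][X]} {d : ℕ} (hF : GoodFac h F d)
    (hk : 1 ≤ h.natDegree) (hdk : d ≤ h.natDegree) (hne : derivative h ≠ 0) :
    (Cu F \ Cg h F).card ≤ 2 * (h.natDegree * h.natDegree) := by
  classical
  set T : Finset (ZMod p) := Finset.univ.filter (fun x => h.derivative.eval x = 0) with hT
  have hTc : T.card ≤ h.natDegree := by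
    have hsub : T ⊆ (derivative h).roots.toFinset := by
      intro z hz
      rw [hT, Finset.mem_filter] at hz
      rw [Multiset.mem_toFinset, mem_roots hne]
      exact hz.2
    refine (Finset.card_le_card hsub).trans ((Multiset.toFinset_card_le _).trans ?_)
    refine (card_roots' _).trans ((natDegree_derivative_le _).trans (Nat.sub_le _ _))
  have h1 : ((Cu F).filter (fun P => P.1 ∈ T)).card ≤ h.natDegree * h.natDegree :=
    (card_Cu_filter hF T).trans (Nat.mul_le_mul hTc hdk)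
  have h2 : ((Cu F).filter (fun P => P.2 ∈ T)).card ≤ h.natDegree * h.natDegree :=
    (card_filter2 hF hk T).trans (Nat.mul_le_mul_right _ hTc)
  have h3 : Cu F \ Cg h F ⊆ (Cu F).filter (fun P => P.1 ∈ T) ∪ (Cu F).filter (fun P => P.2 ∈ T) := by
    intro P hP
    rw [Finset.mem_sdiff, mem_Cg] at hP
    rw [Finset.mem_union, Finset.mem_filter, Finset.mem_filter, hT, Finset.mem_filter,
      Finset.mem_filter]
    by_cases h4 : h.derivative.eval P.1 = 0
    · exact Or.inl ⟨hP.1, Finset.mem_univ _, h4⟩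
    · right
      refine ⟨hP.1, Finset.mem_univ _, ?_⟩
      by_contra h5
      exact hP.2 ⟨(mem_Cu F P).mp hP.1, h4, h5⟩
  refine (Finset.card_le_card h3).trans ((Finset.card_union_le _ _).trans ?_)
  omega

/-- the symmetrised weights -/
noncomputable def wt2 (h : (ZMod p)[X]) (F : (ZMod p)[X][X]) (x : ZMod p) : ℝ :=
  (p : ℝ) / (2 * ((Cg h F).card : ℝ)) * ((((Cg h F).filter (fun P => P.1 = x)).card : ℝ) +
    (((Cg h F).filter (fun P => P.2 = x)).card : ℝ))

lemma wt2_sum (h : (ZMod p)[X]) (F : (ZMod p)[X][X]) (g : ZMod p → ℂ) :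
    ∑ x, (wt2 h F x : ℂ) * g x = ((p : ℝ) / (2 * ((Cg h F).card : ℝ)) : ℝ) *
      (∑ P ∈ Cg h F, g P.1 + ∑ P ∈ Cg h F, g P.2) := by
  have h1 : ∑ P ∈ Cg h F, g P.1 =
      ∑ x, (((Cg h F).filter (fun P => P.1 = x)).card : ℂ) * g x := by
    rw [← Finset.sum_fiberwise_of_maps_to (g := fun P : ZMod p × ZMod p => P.1)
      (t := Finset.univ) (fun _ _ => Finset.mem_univ _)]
    refine Finset.sum_congr rfl fun x _ => ?_
    rw [Finset.sum_congr rfl (g := fun _ => g x), Finset.sum_const, nsmul_eq_mul]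
    intro P hP
    rw [(Finset.mem_filter.mp hP).2]
  have h2 : ∑ P ∈ Cg h F, g P.2 =
      ∑ x, (((Cg h F).filter (fun P => P.2 = x)).card : ℂ) * g x := by
    rw [← Finset.sum_fiberwise_of_maps_to (g := fun P : ZMod p × ZMod p => P.2)
      (t := Finset.univ) (fun _ _ => Finset.mem_univ _)]
    refine Finset.sum_congr rfl fun x _ => ?_
    rw [Finset.sum_congr rfl (g := fun _ => g x), Finset.sum_const, nsmul_eq_mul]
    intro P hP
    rw [(Finset.mem_filter.mp hP).2]
  rw [h1, h2, ← Finset.sum_add_distrib, Finset.mul_sum]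
  refine Finset.sum_congr rfl fun x _ => ?_
  rw [wt2]
  push_cast
  ring

/-- the second coordinates give the conjugate sum -/
lemma conj_sum {h : (ZMod p)[X]} {F : (ZMod p)[X][X]} {d : ℕ} (hF : GoodFac h F d)
    (a : ZMod p) : ∑ P ∈ Cg h F, ep p (a * h.eval P.2) =
      (starRingEnd ℂ) (∑ P ∈ Cg h F, ep p (a * h.eval P.1)) := by
  rw [map_sum]
  refine Finset.sum_congr rfl fun P hP => ?_
  rw [mem_Cg] at hP
  rw [ep_conj]
  congr 1
  have h1 := on_curve hF hP.1
  rw [eq_neg_of_add_eq_zero_right h1]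
  ring

lemma derivative_ne {h : (ZMod p)[X]} (h1 : 1 ≤ h.natDegree) (h2 : h.natDegree < p) :
    derivative h ≠ 0 := by
  intro h0
  have h3 : (derivative h).coeff (h.natDegree - 1) = 0 := by rw [h0, coeff_zero]
  rw [coeff_derivative, Nat.sub_add_cancel h1, mul_eq_zero] at h3
  rcases h3 with h4 | h4
  · rw [coeff_natDegree, leadingCoeff_eq_zero] at h4
    rw [h4] at h1
    simp at h1
  · have h5 : ((h.natDegree : ℕ) : ZMod p) = 0 := by
      have h6 : ((h.natDegree - 1 : ℕ) : ZMod p) + 1 = ((h.natDegree : ℕ) : ZMod p) := by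
        have : h.natDegree - 1 + 1 = h.natDegree := Nat.sub_add_cancel h1
        exact_mod_cast congrArg (fun n : ℕ => (n : ZMod p)) this
      rw [← h6]; exact h4
    rw [ZMod.natCast_eq_zero_iff] at h5
    have := Nat.le_of_dvd h1 h5
    omega

end G2P

open G2P in
/-- block G2 -/
theorem evenWeightG (hG1 : G1) (hL : CurveLower) (hU : CurveUpper) : EvenWeightG := by
  classical
  intro k hk
  obtain ⟨K₁, hK₁⟩ := hL k hk
  obtain ⟨K₂, P₀, hK₂⟩ := hU k hk
  set A₁ : ℝ := max K₁ 0 with hA₁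
  set A₂ : ℝ := max K₂ 0 with hA₂
  have hA₁0 : 0 ≤ A₁ := le_max_right _ _
  have hA₂0 : 0 ≤ A₂ := le_max_right _ _
  set M : ℝ := 2 * A₁ + 2 * A₂ + 6 * (k : ℝ) ^ 5 with hM
  have hk0 : (0 : ℝ) ≤ k := Nat.cast_nonneg _
  have hk2 : (2 : ℝ) ≤ k := by exact_mod_cast hk
  have hM0 : 0 ≤ M := by positivity
  refine ⟨2 * (M + 1) + 4 * (k : ℝ) ^ 2, P₀ + (k + 1) + ⌈16 * A₁ ^ 2⌉₊ + 8 * k ^ 2, by positivity,
    ?_⟩
  intro p _ hp h r ζ m hdeg hmr hm hζ
  have hp0 : (0 : ℝ) ≤ p := Nat.cast_nonneg _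
  have hp1 : (1 : ℝ) ≤ p := by exact_mod_cast (Fact.out : p.Prime).one_lt.le
  have hP₀ : P₀ ≤ p := by omega
  have hkp : k < p := by omega
  have hpA : 16 * A₁ ^ 2 ≤ (p : ℝ) := (Nat.le_ceil _).trans (by exact_mod_cast (by omega))
  have hpk : 8 * (k : ℝ) ^ 2 ≤ p := by
    have : 8 * k ^ 2 ≤ p := by omega
    exact_mod_cast this
  have hk1 : 1 ≤ h.natDegree := by omega
  have hh0 : h ≠ 0 := by
    rintro rfl
    simp at hk1
  obtain ⟨F, d, hF, hdk, hirr⟩ := hG1 p h r ζ m hh0 (by omega) hmr hm hζ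
  have hne : derivative h ≠ 0 := derivative_ne hk1 (by omega)
  have hdiff0 := card_diff2 hF hk1 hdk hne
  rw [hdeg] at hdk
  have hdk' : (d : ℝ) ≤ k := by exact_mod_cast hdk
  have hd0 : (0 : ℝ) ≤ d := Nat.cast_nonneg _
  -- lower bound of the curve
  have hcard : (Nat.card {P : ZMod p × ZMod p // evXY F P.1 P.2 = 0}) = (Cu F).card := by
    rw [Nat.card_eq_fintype_card, Fintype.card_subtype]
    rfl
  have hsq0 : 0 ≤ Real.sqrt p := Real.sqrt_nonneg _
  have hsq1 : 1 ≤ Real.sqrt p := by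
    rw [Real.one_le_sqrt]; exact hp1
  have hsqsq : Real.sqrt p * Real.sqrt p = p := Real.mul_self_sqrt hp0
  have hlow : (p : ℝ) - A₁ * Real.sqrt p ≤ (Cu F).card := by
    have h1 := hK₁ p hkp h F d hdeg hF hirr
    rw [hcard] at h1
    have h2 : K₁ * Real.sqrt p ≤ A₁ * Real.sqrt p :=
      mul_le_mul_of_nonneg_right (le_max_left _ _) hsq0
    linarith
  -- the bad set
  set B : Finset (ZMod p) := Finset.univ.filter (fun s =>
    Bad (h.map (algebraMap (ZMod p) (AlgebraicClosure (ZMod p))))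
        (algebraMap (ZMod p) (AlgebraicClosure (ZMod p)) s)) with hBdef
  have hBc : (B.card : ℝ) ≤ 3 * (k : ℝ) ^ 2 := by
    have h1 := bad_card hne hk1 B (fun s hs => (Finset.mem_filter.mp hs).2)
    rw [hdeg] at h1
    have h2 : (B.card : ℝ) ≤ 3 * ((k : ℝ) * k) := by exact_mod_cast h1
    linarith [sq (k : ℝ)]
  have hup : ∀ s, s ∉ B → (NN (Cu F) (fun P => h.eval P.1) s : ℝ) ≤ p + A₂ * Real.sqrt p := by
    intro s hs
    have hs' : ¬ Bad (h.map (algebraMap (ZMod p) (AlgebraicClosure (ZMod p))))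
        (algebraMap (ZMod p) (AlgebraicClosure (ZMod p)) s) := by
      intro h0
      exact hs (Finset.mem_filter.mpr ⟨Finset.mem_univ _, h0⟩)
    have h1 := hK₂ p hP₀ h F d s hdeg hF hirr hs'
    have h2 : Nat.card {P : (ZMod p × ZMod p) × (ZMod p × ZMod p) //
        evXY F P.1.1 P.1.2 = 0 ∧ evXY F P.2.1 P.2.2 = 0 ∧ h.eval P.2.1 = h.eval P.1.1 + s} =
        NN (Cu F) (fun P => h.eval P.1) s := by
      rw [Nat.card_eq_fintype_card, Fintype.card_subtype, NN]
      congr 1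
      ext P
      rw [Finset.mem_filter, Finset.mem_filter, Finset.mem_product, mem_Cu, mem_Cu]
      constructor
      · rintro ⟨-, h1, h2, h3⟩
        exact ⟨⟨h1, h2⟩, h3⟩
      · rintro ⟨⟨h1, h2⟩, h3⟩
        exact ⟨Finset.mem_univ _, h1, h2, h3⟩
    rw [h2] at h1
    have h3 : K₂ * Real.sqrt p ≤ A₂ * Real.sqrt p :=
      mul_le_mul_of_nonneg_right (le_max_left _ _) hsq0
    linarith
  have htriv : ∀ s, (NN (Cu F) (fun P => h.eval P.1) s : ℝ) ≤ (k : ℝ) ^ 3 * p := by
    intro s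
    have h1 := NN_triv hF hk1 s
    rw [hdeg] at h1
    have h2 : (NN (Cu F) (fun P => h.eval P.1) s : ℝ) ≤ (p * d) * (k * d) := by exact_mod_cast h1
    have h3 : ((p : ℝ) * d) * (k * d) ≤ (p * k) * (k * k) := by
      apply mul_le_mul
      · exact mul_le_mul_of_nonneg_left hdk' hp0
      · exact mul_le_mul_of_nonneg_left hdk' hk0
      · positivity
      · positivity
    calc (NN (Cu F) (fun P => h.eval P.1) s : ℝ) ≤ (p * d) * (k * d) := h2
      _ ≤ (p * k) * (k * k) := h3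
      _ = (k : ℝ) ^ 3 * p := by ring
  -- the removed points
  have hdiff : ((Cu F \ Cg h F).card : ℝ) ≤ 2 * (k : ℝ) ^ 2 := by
    rw [hdeg] at hdiff0
    have h2 : ((Cu F \ Cg h F).card : ℝ) ≤ 2 * (k * k) := by exact_mod_cast hdiff0
    nlinarith
  have hsub : Cg h F ⊆ Cu F := Finset.filter_subset _ _
  have hcg : ((Cu F).card : ℝ) ≤ (Cg h F).card + 2 * (k : ℝ) ^ 2 := by
    have h1 : (Cu F \ Cg h F).card + (Cg h F).card = (Cu F).card :=
      Finset.card_sdiff_add_card_eq_card hsub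
    have h2 : (((Cu F \ Cg h F).card : ℝ) + (Cg h F).card) = (Cu F).card := by exact_mod_cast h1
    linarith
  have hA₁s : A₁ * Real.sqrt p ≤ p / 4 := by
    have h1 : 4 * A₁ ≤ Real.sqrt p := by
      apply Real.le_sqrt_of_sq_le
      nlinarith
    nlinarith
  have hcgp : (p : ℝ) / 2 ≤ (Cg h F).card := by linarith
  have hcg0 : (0 : ℝ) < (Cg h F).card := by linarith
  have hρ : (p : ℝ) / (2 * (Cg h F).card) ≤ 1 := by
    rw [div_le_iff₀ (by linarith)]; linarith
  have hρ0 : 0 ≤ (p : ℝ) / (2 * (Cg h F).card) := div_nonneg hp0 (by linarith)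
  have hfib : ∀ x, (((Cg h F).filter (fun P => P.1 = x)).card : ℝ) ≤ k := by
    intro x
    have h1 : ((Cg h F).filter (fun P => P.1 = x)).card ≤ d :=
      (Finset.card_le_card (Finset.filter_subset_filter _ hsub)).trans (fib_Cu hF x)
    exact_mod_cast h1.trans hdk
  have hfib2 : ∀ x, (((Cg h F).filter (fun P => P.2 = x)).card : ℝ) ≤ k := by
    intro x
    have h1 : ((Cg h F).filter (fun P => P.2 = x)).card ≤ h.natDegree :=
      (Finset.card_le_card (Finset.filter_subset_filter _ hsub)).trans (fib2 hF hk1 x)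
    rw [hdeg] at h1
    exact_mod_cast h1
  refine ⟨wt2 h F, ?_, ?_, ?_, ?_, ?_, ?_⟩
  · intro x
    rw [wt2]
    positivity
  · intro x
    rw [wt2]
    have h1 : (p : ℝ) / (2 * (Cg h F).card) *
        ((((Cg h F).filter (fun P => P.1 = x)).card : ℝ) +
          (((Cg h F).filter (fun P => P.2 = x)).card : ℝ)) ≤ 1 * (k + k) :=
      mul_le_mul hρ (add_le_add (hfib x) (hfib2 x)) (by positivity) (by norm_num)
    nlinarith
  · have h1 := wt2_sum h F (fun _ => 1)
    have h2 : ((∑ x, wt2 h F x : ℝ) : ℂ) = ((p : ℝ) : ℂ) := by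
      push_cast
      simp only [mul_one] at h1
      rw [h1, Finset.sum_const, nsmul_eq_mul, mul_one]
      have h3 : ((Cg h F).card : ℂ) ≠ 0 := by
        have := hcg0.ne'
        exact_mod_cast this
      push_cast
      field_simp
      ring
    exact_mod_cast h2
  · intro x hx
    rw [wt2]
    have h1 : (Cg h F).filter (fun P => P.1 = x) = ∅ := by
      rw [Finset.filter_eq_empty_iff]
      intro P hP hPx
      rw [mem_Cg] at hP
      rw [hPx] at hP
      exact hP.2.1 hx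
    have h2 : (Cg h F).filter (fun P => P.2 = x) = ∅ := by
      rw [Finset.filter_eq_empty_iff]
      intro P hP hPx
      rw [mem_Cg] at hP
      rw [hPx] at hP
      exact hP.2.2 hx
    rw [h1, h2, Finset.card_empty, Nat.cast_zero, add_zero, mul_zero]
  · intro a
    rw [wt2_sum h F (fun x => ep p (a * h.eval x)), Complex.im_ofReal_mul, conj_sum hF a,
      Complex.add_conj, Complex.ofReal_im, mul_zero]
  · intro a ha
    have hcore := core (Cu F) (fun P => h.eval P.1) B A₁ A₂ ((k : ℝ) ^ 3) (3 * (k : ℝ) ^ 2)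
      hA₂0 (by positivity) hBc hlow hup htriv a ha
    have hQ1 : 1 ≤ (p : ℝ) ^ (3 / 4 : ℝ) := Real.one_le_rpow hp1 (by norm_num)
    have h2 := bound_core _ (k : ℝ) (2 * A₁ + 2 * A₂) _ (norm_nonneg _) hk0 (by positivity)
      (zero_le_one.trans hQ1) rpow34 hcore
    have h4 := bound_sub (Cu F) (Cg h F) hsub (fun P => a * h.eval P.1) _ _ h2 hdiff
    rw [wt2_sum h F (fun x => ep p (a * h.eval x)), norm_mul, Complex.norm_real,
      Real.norm_of_nonneg hρ0, conj_sum hF a]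
    have h5 : ‖∑ P ∈ Cg h F, ep p (a * h.eval P.1) +
        (starRingEnd ℂ) (∑ P ∈ Cg h F, ep p (a * h.eval P.1))‖ ≤
        2 * ((2 * A₁ + 2 * A₂ + 6 * (k : ℝ) ^ 5 + 1) * (p : ℝ) ^ (3 / 4 : ℝ) + 2 * (k : ℝ) ^ 2) := by
      refine (norm_add_le _ _).trans ?_
      rw [RCLike.norm_conj]
      linarith
    generalize (p : ℝ) ^ (3 / 4 : ℝ) = Q at *
    calc (p : ℝ) / (2 * (Cg h F).card) * ‖∑ P ∈ Cg h F, ep p (a * h.eval P.1) +
        (starRingEnd ℂ) (∑ P ∈ Cg h F, ep p (a * h.eval P.1))‖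
        ≤ 1 * (2 * ((2 * A₁ + 2 * A₂ + 6 * (k : ℝ) ^ 5 + 1) * Q + 2 * (k : ℝ) ^ 2)) :=
          mul_le_mul hρ h5 (norm_nonneg _) (by norm_num)
      _ = 2 * (M + 1) * Q + 4 * (k : ℝ) ^ 2 * 1 := by rw [hM]; ring
      _ ≤ 2 * (M + 1) * Q + 4 * (k : ℝ) ^ 2 * Q := by
          have := mul_le_mul_of_nonneg_left hQ1 (by positivity : (0 : ℝ) ≤ 4 * (k : ℝ) ^ 2)
          linarith
      _ = (2 * (M + 1) + 4 * (k : ℝ) ^ 2) * Q := by ring

end Vale.Agent.P042.WG
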